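import Mathlib

/-!
# Row 218, block A (helper83): Petrie's map and an explicit non-vanishing path to the identity
-/

set_option autoImplicit false
set_option maxHeartbeats 400000

open scoped ContDiff ComplexConjugate

namespace Crest.Agent.N218.Pt

/-- Petrie's map `L² + L³ → L + L⁶` -/
def P (z : ℂ × ℂ) : ℂ × ℂ := (conj z.1 * z.2, z.1 ^ 3 + z.2 ^ 2)

/-- the unique preimage of `(s⁵, 0)` -/
theorem P_fib (s : ℝ) (u v : ℂ) (h1 : conj u * v = (s : ℂ) ^ 5) (h2 : u ^ 3 + v ^ 2 = 0) :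
    u = -(s : ℂ) ^ 2 ∧ v = -(s : ℂ) ^ 3 := by
  have hn : (Complex.normSq u : ℂ) = conj u * u := by
    rw [Complex.normSq_eq_conj_mul_self]
  have h3 : (Complex.normSq u : ℂ) ^ 2 * u = -(s : ℂ) ^ 10 := by
    rw [hn]
    have : (conj u * v) ^ 2 = (s : ℂ) ^ 10 := by rw [h1]; ring
    linear_combination (conj u) ^ 2 * h2 - this
  have h4 : ‖u‖ ^ 5 = (s ^ 2) ^ 5 := by
    have := congrArg norm h3
    rw [norm_mul, norm_pow, norm_neg, norm_pow, Complex.norm_real, Complex.norm_real,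
      Complex.normSq_eq_norm_sq, Real.norm_eq_abs, Real.norm_eq_abs, abs_of_nonneg (sq_nonneg _)]
      at this
    have h5 : |s| ^ 10 = (s ^ 2) ^ 5 := by
      rw [show (10 : ℕ) = 2 * 5 from rfl, pow_mul, sq_abs]
    rw [← h5, ← this]; ring
  have h5 : ‖u‖ = s ^ 2 :=
    (pow_left_inj₀ (norm_nonneg _) (sq_nonneg _) (by norm_num)).1 h4
  by_cases hs : s = 0
  · subst hs
    have hu : u = 0 := by simpa using h5
    subst hu
    have hv : v = 0 := by simpa using h2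
    simp [hv]
  · have hs' : (s : ℂ) ≠ 0 := by exact_mod_cast hs
    have h6 : (Complex.normSq u : ℂ) = (s : ℂ) ^ 4 := by
      rw [Complex.normSq_eq_norm_sq, h5]; push_cast; ring
    rw [h6] at h3
    have hu : u = -(s : ℂ) ^ 2 := by
      apply mul_left_cancel₀ (pow_ne_zero 8 hs')
      linear_combination h3
    refine ⟨hu, ?_⟩
    rw [hu] at h1
    simp only [map_neg, map_pow, Complex.conj_ofReal] at h1
    apply mul_left_cancel₀ (pow_ne_zero 2 hs')
    linear_combination -h1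

theorem P_ne {z : ℂ × ℂ} (hz : z ≠ 0) : P z ≠ 0 := by
  intro h
  have h1 : conj z.1 * z.2 = ((0 : ℝ) : ℂ) ^ 5 := by simpa [P] using congrArg Prod.fst h
  have h2 : z.1 ^ 3 + z.2 ^ 2 = 0 := congrArg Prod.snd h
  obtain ⟨a, b⟩ := P_fib 0 _ _ h1 h2
  exact hz (Prod.ext (by simpa using a) (by simpa using b))

/-- difference quotient `(P (s·p + (1-s) z) - P (s·p)) / (1-s)`, `s·p = (-s², -s³)` -/
def H1 (s : ℝ) (z : ℂ × ℂ) : ℂ × ℂ :=
  (-(s : ℂ) ^ 2 * z.2 - (s : ℂ) ^ 3 * conj z.1 + (1 - s) * (conj z.1 * z.2),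
    3 * (s : ℂ) ^ 4 * z.1 - 3 * (s : ℂ) ^ 2 * (1 - s) * z.1 ^ 2 + (1 - s) ^ 2 * z.1 ^ 3
      - 2 * (s : ℂ) ^ 3 * z.2 + (1 - s) * z.2 ^ 2)

theorem H1_zero (z : ℂ × ℂ) : H1 0 z = P z := by simp [H1, P]

theorem H1_one (z : ℂ × ℂ) : H1 1 z = (-z.2 - conj z.1, 3 * z.1 - 2 * z.2) := by simp [H1]

/-- the segment from `DP(p)` to the identity is non-singular -/
theorem seg_ne (b : ℝ) {z : ℂ × ℂ} (hz : z ≠ 0) : H1 1 z + b • (z - H1 1 z) ≠ 0 := by
  intro h
  rw [H1_one] at h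
  have h1 := congrArg Prod.fst h
  have h2 := congrArg Prod.snd h
  simp only [Prod.fst_add, Prod.snd_add, Prod.smul_fst, Prod.smul_snd, Prod.fst_sub, Prod.snd_sub,
    Prod.fst_zero, Prod.snd_zero] at h1 h2
  have a1 := congrArg Complex.re h1
  have a2 := congrArg Complex.im h1
  have a3 := congrArg Complex.re h2
  have a4 := congrArg Complex.im h2
  simp at a1 a2 a3 a4
  set x1 := z.1.re
  set y1 := z.1.im
  set x2 := z.2.re
  set y2 := z.2.im
  have d1 : 0 < 1 - 5 * (1 - b) + 9 * (1 - b) ^ 2 := by nlinarith [sq_nonneg (18 * (1 - b) - 5)]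
  have d2 : 0 < 1 - 3 * (1 - b) + 3 * (1 - b) ^ 2 := by nlinarith [sq_nonneg (2 * (1 - b) - 1)]
  have e1 : x1 = 0 := by
    apply mul_left_cancel₀ d1.ne'
    linear_combination (1 - 3 * (1 - b)) * a1 + (1 - b) * a3
  have e2 : x2 = 0 := by
    apply mul_left_cancel₀ d1.ne'
    linear_combination (-3 * (1 - b)) * a1 + (1 - 2 * (1 - b)) * a3
  have e3 : y1 = 0 := by
    apply mul_left_cancel₀ d2.ne'
    linear_combination (1 - 3 * (1 - b)) * a2 + (1 - b) * a4
  have e4 : y2 = 0 := by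
    apply mul_left_cancel₀ d2.ne'
    linear_combination (-3 * (1 - b)) * a2 + a4
  exact hz (Prod.ext (Complex.ext e1 e3) (Complex.ext e2 e4))

theorem H1_ne (s : ℝ) {z : ℂ × ℂ} (hz : z ≠ 0) : H1 s z ≠ 0 := by
  by_cases hs : s = 1
  · subst hs
    simpa using seg_ne 0 hz
  intro h
  have h1 := congrArg Prod.fst h
  have h2 := congrArg Prod.snd h
  simp only [H1, Prod.fst_zero, Prod.snd_zero] at h1 h2
  have hl : (1 - (s : ℂ)) ≠ 0 := by
    rw [sub_ne_zero]; exact_mod_cast Ne.symm hs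
  obtain ⟨a, b⟩ := P_fib s (-(s : ℂ) ^ 2 + (1 - s) * z.1) (-(s : ℂ) ^ 3 + (1 - s) * z.2)
    (by
      simp only [map_add, map_neg, map_pow, map_mul, map_sub, map_one, Complex.conj_ofReal]
      linear_combination (1 - (s : ℂ)) * h1)
    (by linear_combination (1 - (s : ℂ)) * h2)
  apply hz
  refine Prod.ext (mul_left_cancel₀ hl ?_) (mul_left_cancel₀ hl ?_)
  · simp only [Prod.fst_zero]; linear_combination a
  · simp only [Prod.snd_zero]; linear_combination b

theorem H1_smooth : ContDiff ℝ ∞ fun p : ℝ × (ℂ × ℂ) => H1 p.1 p.2 := by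
  have c : ContDiff ℝ ∞ fun p : ℝ × (ℂ × ℂ) => conj p.2.1 :=
    Complex.conjCLE.contDiff.comp (by fun_prop)
  have r : ContDiff ℝ ∞ fun p : ℝ × (ℂ × ℂ) => (p.1 : ℂ) :=
    Complex.ofRealCLM.contDiff.comp (by fun_prop)
  have a : ContDiff ℝ ∞ fun p : ℝ × (ℂ × ℂ) => p.2.1 := by fun_prop
  have b : ContDiff ℝ ∞ fun p : ℝ × (ℂ × ℂ) => p.2.2 := by fun_prop
  unfold H1
  refine ContDiff.prodMk ?_ ?_
  · exact (((r.pow 2).neg.mul b).sub ((r.pow 3).mul c)).add ((contDiff_const.sub r).mul (c.mul b))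
  · exact (((((contDiff_const.mul (r.pow 4)).mul a).sub
      (((contDiff_const.mul (r.pow 2)).mul (contDiff_const.sub r)).mul (a.pow 2))).add
      (((contDiff_const.sub r).pow 2).mul (a.pow 3))).sub
      ((contDiff_const.mul (r.pow 3)).mul b)).add ((contDiff_const.sub r).mul (b.pow 2))

/-- The path: `H t = P` for `t ≤ 0`, `H t = id` for `1 ≤ t`, never zero off `0`. -/
noncomputable def H (t : ℝ) (z : ℂ × ℂ) : ℂ × ℂ :=
  H1 (Real.smoothTransition (2 * t)) z + Real.smoothTransition (2 * t - 1) • (z - H1 1 z)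

theorem H_of_le {t : ℝ} (ht : t ≤ 0) (z : ℂ × ℂ) : H t z = P z := by
  rw [H, Real.smoothTransition.zero_of_nonpos (by linarith),
    Real.smoothTransition.zero_of_nonpos (by linarith), H1_zero]
  simp

theorem H_of_ge {t : ℝ} (ht : 1 ≤ t) (z : ℂ × ℂ) : H t z = z := by
  rw [H, Real.smoothTransition.one_of_one_le (by linarith),
    Real.smoothTransition.one_of_one_le (by linarith)]
  simp

theorem H_ne (t : ℝ) {z : ℂ × ℂ} (hz : z ≠ 0) : H t z ≠ 0 := by
  rcases le_total t (1 / 2) with ht | ht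
  · rw [H, Real.smoothTransition.zero_of_nonpos (x := 2 * t - 1) (by linarith)]
    simpa using H1_ne _ hz
  · rw [H, Real.smoothTransition.one_of_one_le (x := 2 * t) (by linarith)]
    exact seg_ne _ hz

theorem H_zero (t : ℝ) : H t 0 = 0 := by simp [H, H1]

theorem H_smooth : ContDiff ℝ ∞ fun p : ℝ × (ℂ × ℂ) => H p.1 p.2 := by
  have s1 : ContDiff ℝ ∞ fun p : ℝ × (ℂ × ℂ) => Real.smoothTransition (2 * p.1) :=
    Real.smoothTransition.contDiff.comp (by fun_prop)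
  have s2 : ContDiff ℝ ∞ fun p : ℝ × (ℂ × ℂ) => Real.smoothTransition (2 * p.1 - 1) :=
    Real.smoothTransition.contDiff.comp (by fun_prop)
  have s3 : ContDiff ℝ ∞ fun p : ℝ × (ℂ × ℂ) => H1 (Real.smoothTransition (2 * p.1)) p.2 :=
    H1_smooth.comp (f := fun p : ℝ × (ℂ × ℂ) => (Real.smoothTransition (2 * p.1), p.2))
      (s1.prodMk contDiff_snd)
  have s4 : ContDiff ℝ ∞ fun p : ℝ × (ℂ × ℂ) => H1 1 p.2 :=
    H1_smooth.comp (f := fun p : ℝ × (ℂ × ℂ) => ((1 : ℝ), p.2)) (contDiff_const.prodMk contDiff_snd)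
  exact s3.add (s2.smul (contDiff_snd.sub s4))

theorem P_smooth : ContDiff ℝ ∞ P := by
  have := H1_smooth.comp ((contDiff_const (c := (0 : ℝ))).prodMk (contDiff_id (E := ℂ × ℂ)))
  simpa [Function.comp_def, H1_zero] using this

/-- equivariance: weights `(2,3) → (1,6)` -/
theorem P_equiv (c : ℂ) (hc : ‖c‖ = 1) (z : ℂ × ℂ) :
    P (c ^ 2 * z.1, c ^ 3 * z.2) = (c * (P z).1, c ^ 6 * (P z).2) := by
  have h : conj c * c = 1 := by
    rw [← Complex.normSq_eq_conj_mul_self, Complex.normSq_eq_norm_sq, hc]; simp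
  refine Prod.ext ?_ ?_
  · simp only [P, map_mul, map_pow]
    linear_combination (c * conj z.1 * z.2 * (conj c * c + 1)) * h
  · simp only [P]; ring

end Crest.Agent.N218.Pt
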